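import Vale.Agent.P167.H192.S2.LZ
import Vale.Agent.P167.H397.Q.S2Defs

/-!
# P167, general `q`, Stage II: the two forms of the event `L`
-/

namespace Vale.Agent.P167.H192.S2

open Relation Vale.Agent.P167 Vale.Agent.P167.FK
open Vale.Agent.P145.FB (PStep)

theorem nm_finite (M : ℤ) : {y : ℤ × ℤ | nm y < M}.Finite := by
  refine (Set.finite_Icc ((-M, -M) : ℤ × ℤ) (M, M)).subset fun y hy => ?_
  have h1 : max |y.1| |y.2| < M := hy
  have h2 := (le_max_left _ _).trans_lt h1
  have h3 := (le_max_right _ _).trans_lt h1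
  rw [abs_lt] at h2 h3
  exact ⟨⟨h2.1.le, h3.1.le⟩, ⟨h2.2.le, h3.2.le⟩⟩

/-- **The two forms of the event agree.** -/
theorem mem_lz {ω : Cfg} {w s : ℤ × ℤ} : ω ∈ H397.Q.LZ w s ↔ LZ ω w s := by
  constructor
  · intro h1 h2
    obtain ⟨M, hM⟩ := (Set.Finite.image nm h1).bddAbove
    obtain ⟨y, hy, hr⟩ := h2 (M + 1)
    have := hM ⟨y, hr, rfl⟩
    omega
  · intro h1
    by_contra h2
    refine h1 fun M => ?_
    by_contra h3
    push Not at h3
    refine h2 ((nm_finite M).subset fun y hy => ?_)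
    by_contra h4
    exact h3 y (not_lt.1 h4) hy

end Vale.Agent.P167.H192.S2
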