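import Vale.Agent.P167.H192.S2.Fr
import Vale.Agent.P167.H192.S2.LZq
import Vale.Agent.P167.FKA.All
import Vale.Agent.P153.R2.R1.Jordan

/-!
# P167, general `q`, Stage II, (1f): the boundary values of the probability of `L`

`s_free`: near an interior point of the free arc the probability of `L` is small. `s_wired`: near an interior
point of the wired arc it is close to `1`. No assumption on the boundary.
-/

set_option autoImplicit false

namespace Vale.Agent.P167.H192.S2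

open Relation Vale.Agent.P167 Vale.Agent.P167.FK Vale.Agent.P167.FKA
open Set Filter Topology
open Vale.Agent.P145.FB (PStep PConn)
open Vale.Agent.P167.H192 (me cfg rf)
open Vale.Agent.P167.H718 (Dq etaQ wE mem_wE)
open Vale.Agent.P167.E6 Vale.Agent.P167.E2
open Vale.Agent.P167.QN
open Vale.Agent.P153.R2.Final (dom circ toC)

/-! ### Distances -/

theorem nm_ro (w : ℤ × ℤ) : nm (H192.ro w) = |w.1| + |w.2| := by
  unfold H192.ro nm
  simp only
  rcases abs_cases w.1 with h1 | h1 <;> rcases abs_cases w.2 with h2 | h2 <;>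
    rcases abs_cases (w.1 - w.2) with h3 | h3 <;> rcases abs_cases (w.1 + w.2) with h4 | h4 <;>
    omega

theorem ro_sub (u v : ℤ × ℤ) : H192.ro u - H192.ro v = H192.ro (u - v) := by
  unfold H192.ro
  ext <;> simp <;> ring

theorem pt_sub (u v : ℤ × ℤ) : pt u - pt v = pt (u - v) := by
  apply Complex.ext <;> simp [pt]

theorem dist_pt {δ : ℝ} (hδ : 0 < δ) (u v : ℤ × ℤ) :
    dist ((δ : ℂ) * pt u) ((δ : ℂ) * pt v) = δ * ‖pt (u - v)‖ := by
  rw [dist_eq_norm, ← mul_sub, norm_mul, Complex.norm_real, Real.norm_of_nonneg hδ.le, pt_sub]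

theorem nm_le_dist {δ : ℝ} (hδ : 0 < δ) (u v : ℤ × ℤ) :
    (nm (H192.ro u - H192.ro v) : ℝ) * δ ≤ 2 * dist ((δ : ℂ) * pt u) ((δ : ℂ) * pt v) := by
  rw [dist_pt hδ, ro_sub, nm_ro]
  have h1 := Complex.abs_re_le_norm (pt (u - v))
  have h2 := Complex.abs_im_le_norm (pt (u - v))
  simp only [pt] at h1 h2 ⊢
  push_cast
  nlinarith

theorem dist_le_nm {δ : ℝ} (hδ : 0 < δ) (u v : ℤ × ℤ) :
    dist ((δ : ℂ) * pt u) ((δ : ℂ) * pt v) ≤ (nm (H192.ro u - H192.ro v) : ℝ) * δ := by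
  rw [dist_pt hδ, ro_sub, nm_ro]
  have h1 := Complex.norm_le_abs_re_add_abs_im (pt (u - v))
  simp only [pt] at h1 ⊢
  push_cast
  nlinarith

theorem exists_round {δ : ℝ} (hδ : 0 < δ) (X : ℂ) : ∃ u : ℤ × ℤ, dist ((δ : ℂ) * pt u) X ≤ δ := by
  refine ⟨(round (X.re / δ), round (X.im / δ)), ?_⟩
  rw [dist_eq_norm]
  refine (Complex.norm_le_abs_re_add_abs_im _).trans ?_
  have key : ∀ a : ℝ, |δ * (round (a / δ) : ℝ) - a| ≤ δ / 2 := by
    intro a
    have h1 := abs_sub_round (a / δ)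
    have h2 : δ * (round (a / δ) : ℝ) - a = -(δ * (a / δ - round (a / δ))) := by
      field_simp
      ring
    rw [h2, abs_neg, abs_mul, abs_of_pos hδ]
    nlinarith
  have h1 := key X.re
  have h2 := key X.im
  simp only [pt, Complex.sub_re, Complex.sub_im, Complex.mul_re, Complex.mul_im,
    Complex.ofReal_re, Complex.ofReal_im, zero_mul, sub_zero, add_zero]
  linarith

theorem nm_tri {a b c : ℤ × ℤ} {m : ℤ} (h : nm (a - b) ≤ m) (h1 : nm (c - a) ≤ 1) :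
    nm (c - b) ≤ m + 1 := by
  rw [nm_abs] at *
  simp only [Prod.fst_sub, Prod.snd_sub] at *
  omega

theorem nm_rf_ro (f : ℤ × ℤ) : nm (rf f - H192.ro f) ≤ 1 := by
  rw [nm_abs]
  simp only [rf, H192.rf, H192.ro, Prod.fst_sub, Prod.snd_sub]
  omega

theorem nm_face (v : ℤ × ℤ) (d : Fin 4) : nm (rf (face v d) - H192.ro v) ≤ 1 := by
  rw [nm_abs]
  rcases H192.fin4_cases d with rfl | rfl | rfl | rfl <;>
    · simp [H192.rf, H192.ro, face]
      try omega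

/-- The radii. -/
theorem radii {δ ρ d : ℝ} (hδ : 0 < δ) (hρ : 0 < ρ) (h1 : 16 * ρ ≤ d) (h2 : 8 * δ ≤ ρ) :
    ∃ r R : ℤ, 1 ≤ r ∧ r < R ∧ (r : ℝ) / R ≤ 6 * ρ / d ∧
      (∀ m : ℤ, (m : ℝ) * δ ≤ 2 * (ρ + δ) → m + 1 ≤ r) ∧
      (∀ m : ℤ, d - ρ - δ ≤ m * δ → R < m) := by
  have hd : 0 < d := by linarith
  have e1 : 2 * (ρ + δ) / δ = 2 * (ρ / δ) + 2 := by field_simp
  have e2 : (d - ρ - δ) / δ = d / δ - ρ / δ - 1 := by field_simp
  have hx : 8 ≤ ρ / δ := by rw [le_div_iff₀ hδ]; linarith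
  have hy : 16 * (ρ / δ) ≤ d / δ := by
    rw [← mul_div_assoc]
    exact div_le_div_of_nonneg_right h1 hδ.le
  refine ⟨⌊2 * (ρ / δ) + 2⌋ + 2, ⌈d / δ - ρ / δ - 1⌉ - 1, ?_, ?_, ?_, ?_, ?_⟩
  · have : 0 ≤ ⌊2 * (ρ / δ) + 2⌋ := Int.floor_nonneg.2 (by positivity)
    omega
  · have a1 := Int.floor_le (2 * (ρ / δ) + 2)
    have a2 := Int.le_ceil (d / δ - ρ / δ - 1)
    have : (⌊2 * (ρ / δ) + 2⌋ : ℝ) + 2 < (⌈d / δ - ρ / δ - 1⌉ : ℝ) - 1 := by linarith
    exact_mod_cast this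
  · have a1 := Int.floor_le (2 * (ρ / δ) + 2)
    have a2 := Int.le_ceil (d / δ - ρ / δ - 1)
    push_cast
    have h3 : 6 * ρ / d = 6 * (ρ / δ) / (d / δ) := by field_simp
    have h4 : 0 < d / δ := by positivity
    have h5 : d / δ / 2 ≤ (⌈d / δ - ρ / δ - 1⌉ : ℝ) - 1 := by linarith
    have h6 : (⌊2 * (ρ / δ) + 2⌋ : ℝ) + 2 ≤ 3 * (ρ / δ) := by linarith
    rw [h3, div_le_div_iff₀ (by linarith) h4]
    nlinarith
  · intro m hm
    have a1 : (m : ℝ) ≤ 2 * (ρ / δ) + 2 := by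
      rw [← e1, le_div_iff₀ hδ]
      exact hm
    have a2 := Int.le_floor.2 a1
    omega
  · intro m hm
    have a1 : d / δ - ρ / δ - 1 ≤ (m : ℝ) := by
      rw [← e2, div_le_iff₀ hδ]
      exact hm
    have a2 := Int.ceil_le.2 a1
    omega

/-- The box around a point. -/
theorem geo {δ ρ d : ℝ} (hδ : 0 < δ) (hρ : 0 < ρ) (h1 : 16 * ρ ≤ d) (h2 : 8 * δ ≤ ρ) (X : ℂ) :
    ∃ (x : ℤ × ℤ) (r R : ℤ), 1 ≤ r ∧ r < R ∧ (r : ℝ) / R ≤ 6 * ρ / d ∧
      (∀ f : ℤ × ℤ, dist ((δ : ℂ) * pt f) X < ρ → nm (rf f - x) ≤ r) ∧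
      (∀ (v : ℤ × ℤ) (e : Fin 4), dist ((δ : ℂ) * pt v) X < ρ → nm (rf (face v e) - x) ≤ r) ∧
      (∀ v : ℤ × ℤ, d - ρ ≤ dist ((δ : ℂ) * pt v) X → R < nm (H192.ro v - x)) := by
  obtain ⟨r, R, a1, a2, a3, a4, a5⟩ := radii hδ hρ h1 h2
  obtain ⟨u, hu⟩ := exists_round hδ X
  have near : ∀ v : ℤ × ℤ, dist ((δ : ℂ) * pt v) X < ρ → nm (H192.ro v - H192.ro u) + 1 ≤ r := by
    intro v hv
    refine a4 _ ((nm_le_dist hδ v u).trans ?_)
    have := dist_triangle ((δ : ℂ) * pt v) X ((δ : ℂ) * pt u)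
    rw [dist_comm X] at this
    linarith
  refine ⟨H192.ro u, r, R, a1, a2, a3, fun f hf => ?_, fun v e hv => ?_, fun v hv => ?_⟩
  · exact (nm_tri le_rfl (nm_rf_ro f)).trans (near f hf)
  · exact (nm_tri le_rfl (nm_face v e)).trans (near v hv)
  · refine a5 _ (le_trans ?_ (dist_le_nm hδ v u))
    have := dist_triangle ((δ : ℂ) * pt v) ((δ : ℂ) * pt u) X
    linarith

/-! ### The boundary curve -/

theorem cont_arc (Φ : (ℝ × ℝ) ≃ₜ (ℝ × ℝ)) : Continuous fun s : ℝ => toC (Φ (circ s)) := by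
  have h1 : Continuous circ := by
    unfold circ
    fun_prop
  exact Vale.Agent.P153.R2.R1.continuous_toC.comp (Φ.continuous.comp h1)

/-- A point is at positive distance from an arc which does not contain it. -/
theorem arc_dist (Φ : (ℝ × ℝ) ≃ₜ (ℝ × ℝ)) {t a b : ℝ} (hab : a ≤ b)
    (h : ∀ s ∈ Icc a b, circ s ≠ circ t) :
    ∃ d : ℝ, 0 < d ∧ ∀ s ∈ Icc a b, d ≤ dist (toC (Φ (circ s))) (toC (Φ (circ t))) := by
  obtain ⟨s₀, hs₀, hmin⟩ := (isCompact_Icc (a := a) (b := b)).exists_isMinOn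
    (nonempty_Icc.2 hab) (f := fun s => dist (toC (Φ (circ s))) (toC (Φ (circ t))))
    ((cont_arc Φ).dist continuous_const).continuousOn
  refine ⟨_, dist_pos.2 fun h1 => h s₀ hs₀ ?_, fun s hs => hmin hs⟩
  exact Φ.injective (Vale.Agent.P153.R2.R1.toC_injective h1)

/-- A parameter is in one of the intervals. -/
theorem find_arc {s : ℕ → ℝ} {N : ℕ} {t : ℝ} (h0 : s 0 < t) (h1 : t ≤ s N) :
    ∃ i < N, t ∈ Icc (s i) (s (i + 1)) := by
  classical
  have hex : ∃ j, t ≤ s j := ⟨N, h1⟩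
  have h2 := Nat.find_spec hex
  have h3 : Nat.find hex ≠ 0 := by
    intro h
    rw [h] at h2
    linarith
  have h4 : Nat.find hex ≤ N := Nat.find_le h1
  refine ⟨Nat.find hex - 1, by omega, ?_, ?_⟩
  · have := Nat.find_min hex (m := Nat.find hex - 1) (by omega)
    linarith
  · rw [show Nat.find hex - 1 + 1 = Nat.find hex by omega]
    exact h2

/-- The constants. -/
theorem rho_exists {α C d ε : ℝ} (hα : 0 < α) (hd : 0 < d) (hε : 0 < ε) :
    ∃ ρ : ℝ, 0 < ρ ∧ 16 * ρ ≤ d ∧ C * (6 * ρ / d) ^ α ≤ ε := by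
  have h1 : Tendsto (fun ρ : ℝ => C * (6 * ρ / d) ^ α) (𝓝[>] 0) (𝓝 0) := by
    have h2 : Tendsto (fun ρ : ℝ => 6 * ρ / d) (𝓝[>] 0) (𝓝 0) := by
      have : Tendsto (fun ρ : ℝ => 6 * ρ / d) (𝓝 0) (𝓝 (6 * 0 / d)) :=
        Continuous.tendsto (by fun_prop) 0
      rw [mul_zero, zero_div] at this
      exact this.mono_left nhdsWithin_le_nhds
    have h3 := (h2.rpow_const (p := α) (Or.inr hα.le)).const_mul C
    rw [Real.zero_rpow hα.ne', mul_zero] at h3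
    exact h3
  have h4 : ∀ᶠ ρ : ℝ in 𝓝[>] 0, ρ < d / 16 :=
    (gt_mem_nhds (by positivity : (0 : ℝ) < d / 16)).filter_mono nhdsWithin_le_nhds
  obtain ⟨ρ, h5, h6, h7⟩ := ((h1.eventually (ge_mem_nhds hε)).and
    (h4.and self_mem_nhdsWithin)).exists
  exact ⟨ρ, h7, by linarith, h5⟩

/-- From radii to the bound. -/
theorem bd_le {q C α ρ d ε : ℝ} {r R : ℤ} (hq : 0 < q) (hC : 0 < C) (hα : 0 < α) (hr : 1 ≤ r)
    (hrR : r < R) (h : (r : ℝ) / R ≤ 6 * ρ / d) (h2 : 2 * q * C * (6 * ρ / d) ^ α ≤ ε) :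
    2 * q * C * ((r : ℝ) / R) ^ α ≤ ε := by
  refine le_trans (mul_le_mul_of_nonneg_left (Real.rpow_le_rpow ?_ h hα.le) (by positivity)) h2
  have : (0 : ℝ) ≤ r := by exact_mod_cast (by omega : (0 : ℤ) ≤ r)
  have : (0 : ℝ) ≤ R := by exact_mod_cast (by omega : (0 : ℤ) ≤ R)
  positivity

/-- **(1f), the free side.** -/
theorem s_freeR {q : ℝ} (hq1 : 1 ≤ q) (hR : RSW √q) : H397.Q.S_free q := by
  intro Φ δ N k p S h t ht ε hε
  have hq0 : 0 < q := by linarith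
  have hQ : 1 ≤ √q := by rw [Real.one_le_sqrt]; exact hq1
  obtain ⟨α, C, hα, hC, hA, -⟩ := FKA.arm_fk hQ hR
  have hpi := Real.pi_pos
  obtain ⟨d, hd, hd2⟩ := arc_dist Φ (t := t) (a := Real.pi) (b := 2 * Real.pi) (by linarith)
    (by
      intro s hs hst
      have h1 : Real.sin s = Real.sin t := congrArg Prod.snd hst
      have h2 := Real.sin_pos_of_pos_of_lt_pi ht.1 ht.2
      have h3 : Real.sin (s - Real.pi) = -Real.sin s := Real.sin_sub_pi s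
      have h4 := Real.sin_nonneg_of_nonneg_of_le_pi (x := s - Real.pi) (by linarith [hs.1])
        (by linarith [hs.2])
      linarith)
  obtain ⟨ρ, hρ, hρ1, hρ2⟩ := rho_exists (C := 2 * q * C) hα hd hε
  obtain ⟨h1, h2, h3⟩ := h
  refine ⟨ρ, hρ, fun f hf => ?_⟩
  filter_upwards [hf, h2.eventually (gt_mem_nhds (show (0 : ℝ) < ρ / 8 by positivity)), h3 ρ hρ]
    with n hn1 hn2 hn3
  obtain ⟨hδ, hk0, hkN, hp, hS⟩ := h1 n
  obtain ⟨s, s1, s2, s3, s4, s5⟩ := hn3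
  obtain ⟨x, r, R, b1, b2, b3, b4, b5, b6⟩ := geo hδ hρ hρ1 (by linarith)
    (toC (Φ (circ t)))
  obtain ⟨i, hi, hti⟩ := find_arc (s := s) (N := N n) (t := t) (by rw [s2]; exact ht.1)
    (by rw [s4]; linarith [ht.2])
  refine le_trans (fresh_mean (x := x) (r := r) (R := R) hq1 hA hp hS b1 b2.le
    (E := H397.Q.LZ (H192.ro (p n (-1))) (rf (f n))) ?_) (bd_le hq0 hC hα b1 b2 b3 hρ2)
  intro A hAS hE
  refine Or.inl (free_det hp hS hAS hkN b1 b2 ?_ (b4 _ hn1) (E2.enc_out hp hS (i := (i : ZMod (N n)))).2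
    (b5 _ _ (s5 i hi t hti)) (mem_lz.1 hE))
  intro j hj hjN
  refine b6 _ ?_
  have c1 := s5 j hjN (s j) ⟨le_rfl, s1 (Nat.le_succ j)⟩
  have c2 := hd2 (s j) ⟨by rw [← s3]; exact s1 hj, by rw [← s4]; exact s1 hjN.le⟩
  have c3 := dist_triangle (toC (Φ (circ (s j)))) ((δ n : ℂ) * pt (p n j)) (toC (Φ (circ t)))
  have c4 := dist_comm (toC (Φ (circ (s j)))) ((δ n : ℂ) * pt (p n j))
  linarith

/-- **(1f), the wired side.** -/
theorem s_wiredR {q : ℝ} (hq1 : 1 ≤ q) (hR : RSW √q) : H397.Q.S_wired q := by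
  intro Φ δ N k p S h t ht ε hε
  have hq0 : 0 < q := by linarith
  have hQ : 1 ≤ √q := by rw [Real.one_le_sqrt]; exact hq1
  have hQ0 : 0 < √q := by linarith
  obtain ⟨α, C, hα, hC, hA, -⟩ := FKA.arm_fk hQ hR
  have hpi := Real.pi_pos
  obtain ⟨d, hd, hd2⟩ := arc_dist Φ (t := t) (a := 0) (b := Real.pi) hpi.le
    (by
      intro s hs hst
      have h1 : Real.sin s = Real.sin t := congrArg Prod.snd hst
      have h2 := Real.sin_pos_of_pos_of_lt_pi (x := t - Real.pi) (by linarith [ht.1])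
        (by linarith [ht.2])
      have h3 : Real.sin (t - Real.pi) = -Real.sin t := Real.sin_sub_pi t
      have h4 := Real.sin_nonneg_of_nonneg_of_le_pi hs.1 hs.2
      linarith)
  obtain ⟨ρ, hρ, hρ1, hρ2⟩ := rho_exists (C := 2 * q * C) hα hd hε
  obtain ⟨h1, h2, h3⟩ := h
  refine ⟨ρ, hρ, fun f hf => ?_⟩
  filter_upwards [hf, h2.eventually (gt_mem_nhds (show (0 : ℝ) < ρ / 8 by positivity)), h3 ρ hρ]
    with n hn1 hn2 hn3
  obtain ⟨hδ, hk0, hkN, hp, hS⟩ := h1 n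
  obtain ⟨s, s1, s2, s3, s4, s5⟩ := hn3
  obtain ⟨x, r, R, b1, b2, b3, b4, b5, b6⟩ := geo hδ hρ hρ1 (by linarith)
    (toC (Φ (circ t)))
  obtain ⟨i, hi, hti⟩ := find_arc (s := s) (N := N n) (t := t) (by rw [s2]; linarith [ht.1])
    (by rw [s4]; exact ht.2.le)
  have key := fresh_mean (p := p n) (k := k n) (S := S n) (x := x) (r := r) (R := R) hq1 hA hp hS
    b1 b2.le (E := (H397.Q.LZ (H192.ro (p n (-1))) (rf (f n)))ᶜ) (by
      intro A hAS hE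
      refine Or.inr (wired_det hp hS hAS hk0 b1 b2 ?_ hn1.2 (b4 _ hn1.1)
        (E2.enc_out hp hS (i := (i : ZMod (N n)))).2 (b5 _ _ (s5 i hi t hti))
        (fun hL => hE (mem_lz.2 hL)))
      intro j hj
      have hjN : j < N n := hj.trans hkN
      refine b6 _ ?_
      have c1 := s5 j hjN (s j) ⟨le_rfl, s1 (Nat.le_succ j)⟩
      have c2 := hd2 (s j) ⟨by rw [← s2]; exact s1 (Nat.zero_le j), by rw [← s3]; exact s1 hj.le⟩
      have c3 := dist_triangle (toC (Φ (circ (s j)))) ((δ n : ℂ) * pt (p n j)) (toC (Φ (circ t)))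
      have c4 := dist_comm (toC (Φ (circ (s j)))) ((δ n : ℂ) * pt (p n j))
      linarith)
  have e1 := H718.mean_eq_Ex (k := k n) hq0 hp hS
    ((H397.Q.LZ (H192.ro (p n (-1))) (rf (f n))).indicator 1)
  have e2 := H718.mean_eq_Ex (k := k n) hq0 hp hS
    ((H397.Q.LZ (H192.ro (p n (-1))) (rf (f n)))ᶜ.indicator 1)
  have e3 : Ex (√q) (Dq (S n) (p n) (k n)) (etaQ (p n) (k n))
      ((H397.Q.LZ (H192.ro (p n (-1))) (rf (f n))).indicator 1) +
      Ex (√q) (Dq (S n) (p n) (k n)) (etaQ (p n) (k n))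
      ((H397.Q.LZ (H192.ro (p n (-1))) (rf (f n)))ᶜ.indicator 1) = 1 := by
    rw [← Ex_add, ← Ex_const (D := Dq (S n) (p n) (k n)) (η := etaQ (p n) (k n)) hQ0 (1 : ℝ)]
    congr 1
    funext ω
    by_cases hω : ω ∈ H397.Q.LZ (H192.ro (p n (-1))) (rf (f n))
    · rw [Set.indicator_of_mem hω, Set.indicator_of_notMem
        (show ω ∉ (H397.Q.LZ (H192.ro (p n (-1))) (rf (f n)))ᶜ from fun h => h hω)]
      simp
    · rw [Set.indicator_of_notMem hω, Set.indicator_of_mem (show ω ∈ (H397.Q.LZ _ _)ᶜ from hω)]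
      simp
  have e4 := bd_le hq0 hC hα b1 b2 b3 hρ2
  show 1 - ε ≤ H397.Q.PL q (p n) (k n) (S n) (f n)
  unfold H397.Q.PL
  rw [e1]
  rw [e2] at key
  linarith

end Vale.Agent.P167.H192.S2
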