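import Vale.Agent.P167.H192.S2.FW
import Vale.Agent.P167.QC.Lat

/-!
# P167, general `q`, Stage II, (1f): the boundary values of the probability of `L` (final form)
-/

namespace Vale.Agent.P167.H192.S2

/-- **(1f), the free side.** -/
theorem s_free {q : ℝ} (hq1 : 1 ≤ q) (hq4 : q ≤ 4) : H397.Q.S_free q :=
  s_freeR hq1 (QC.rsw_sqrt hq1 hq4).2

/-- **(1f), the wired side.** -/
theorem s_wired {q : ℝ} (hq1 : 1 ≤ q) (hq4 : q ≤ 4) : H397.Q.S_wired q :=
  s_wiredR hq1 (QC.rsw_sqrt hq1 hq4).2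

end Vale.Agent.P167.H192.S2
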