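import Vale.Agent.P167.H192.S2.LZ
import Vale.Agent.P167.H632.Co
import Vale.Agent.P167.E2.Path
import Vale.Agent.P167.BR.Poly

/-!
# P167, general `q`, Stage II: faces outside of the polygon are joined to infinity
-/

namespace Vale.Agent.P167.H192.S2

open Relation Vale.Agent.P167 Vale.Agent.P167.FK Vale.Agent.P167.H192
open Vale.Agent.P145.FB (PStep)
open Vale.Agent.P167.E6 Vale.Agent.P167.E2

/-- Neighbouring faces have a common edge. -/
theorem adj_face {f g : ℤ × ℤ} (h : H318.Adj f g) :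
    ∃ (v : ℤ × ℤ) (r : Fin 4), face v r = f ∧ face v (r + 1) = g := by
  have : PStep (op (cfg ∅))ᶜ (rf f) (rf g) := by
    obtain ⟨a, b⟩ := f
    obtain ⟨c, d⟩ := g
    unfold H318.Adj at h
    refine ⟨?_, ?_, ?_⟩
    · simp only [rf] at *
      omega
    · simp only [rf] at *
      omega
    · intro h'
      rw [mem_op_cfg] at h'
      exact h'
  obtain ⟨v, r, h1, h2, -⟩ := fStep_iff.1 this
  exact ⟨v, r, h1, h2⟩

variable {n k : ℕ} {p : ZMod n → ℤ × ℤ} {S : Finset (ℤ × ℤ)} {A : Finset (Sym2 (ℤ × ℤ))}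
  {s₀ : ℤ × ℤ}

/-- A step between faces outside. -/
theorem out_step (hp : IsPolygon p) (hS : Encloses p S) (hA : A ⊆ edges S) {f g : ℤ × ℤ}
    (h : H318.Adj f g) (hf : f ∉ S) (hg : g ∉ S) :
    PStep (op (cfg (wiredOpen p k A)))ᶜ (rf f) (rf g) := by
  obtain ⟨v, r, rfl, rfl⟩ := adj_face h
  exact fStep_iff.2 ⟨v, r, rfl, rfl, not_open_ext (wired_sub hp hS hA) hg hf⟩

/-- Faces outside are joined by closed squares. -/
theorem out_conn (hp : IsPolygon p) (hS : Encloses p S) (hA : A ⊆ edges S) {f g : ℤ × ℤ}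
    (hf : f ∉ S) (hg : g ∉ S) : DC (cfg (wiredOpen p k A)) (rf f) (rf g) := by
  have h := H632.coConn_of_scon (BR.scon hp hS) f g hf hg
  have key : ∀ g, ReflTransGen (fun a b => H318.Adj a b ∧ b ∉ S) f g →
      g ∉ S ∧ DC (cfg (wiredOpen p k A)) (rf f) (rf g) := by
    intro g hg
    induction hg with
    | refl => exact ⟨hf, ReflTransGen.refl⟩
    | tail _ h1 ih => exact ⟨h1.2, ReflTransGen.tail ih.2 (out_step hp hS hA h1.1 ih.1 h1.2)⟩
  exact (key g h).2

/-- **[OUT]**: a face outside is joined to infinity. -/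
theorem out_far (hp : IsPolygon p) (hS : Encloses p S) (hA : A ⊆ edges S) {f : ℤ × ℤ}
    (hf : f ∉ S) : Far (cfg (wiredOpen p k A)) s₀ (rf f) := by
  intro M
  obtain ⟨B, hB⟩ := (S.image fun v => |v.1| + |v.2|).finite_toSet.bddAbove
  set m : ℤ := max (B + 1) (max M 0) with hm
  have hg : ((m, 0) : ℤ × ℤ) ∉ S := by
    intro h
    have h1 : |m| + |(0 : ℤ)| ≤ B :=
      hB (Finset.mem_coe.2 (Finset.mem_image.2 ⟨_, h, rfl⟩))
    rw [abs_zero, add_zero] at h1
    have := le_abs_self m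
    omega
  refine ⟨rf (m, 0), ?_, dc_unb (out_conn hp hS hA hf hg)⟩
  have h1 : |m - 0| ≤ nm (rf (m, 0)) := le_max_left _ _
  rw [sub_zero] at h1
  have := le_abs_self m
  omega

/-- The right site of the first medial edge is joined to infinity. -/
theorem far_cs (hp : IsPolygon p) (hS : Encloses p S) (hA : A ⊆ edges S) :
    Far (cfg (wiredOpen p k A)) s₀ (rs (me (cs p))) := by
  rw [rs_me]
  exact out_far hp hS hA (fc_cs hp hS)

end Vale.Agent.P167.H192.S2
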