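import Vale.Agent.P167.QN.Farm
import Vale.Agent.P167.QN.DetL
import Vale.Agent.P167.H192.S2.Out

/-!
# P167, general `q`, Stage II: a dual site near the boundary and the cluster of the wired arc

`free_det`: if the faces `f` and `g ∉ S` are in a box and the wired arc is far away, then the event `L` for `f`
gives a fresh primal arm. `wired_det`: if the free arc is far away and `f ∈ S`, `g ∉ S` are in the box, then
the complement gives a fresh dual arm. `fresh_mean`: the probability of fresh arms.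
-/

set_option autoImplicit false

namespace Vale.Agent.P167.H192.S2

open Finset Relation Vale.Agent.P167 Vale.Agent.P167.FK Vale.Agent.P167.FKA
open Vale.Agent.P145.FB (PStep PConn)
open Vale.Agent.P167.H192 (me cfg rf ed sq)
open Vale.Agent.P167.H718 (Dq etaQ wE mem_wE)
open Vale.Agent.P167.E6 Vale.Agent.P167.E2
open Vale.Agent.P167.QN
open Vale.Agent.P167.H167.Q (mem_Bq)
open Vale.Agent.P167.Fjord (rot)

/-- A path from a box to the outside of a larger box crosses the annulus. -/
theorem ann_path {F : Set (ℤ × ℤ)} {x : ℤ × ℤ} {r R : ℤ} (hrR : r < R) {u w : ℤ × ℤ}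
    (h : ReflTransGen (PStep F) u w) (hu : nm (u - x) ≤ r) (hw : R ≤ nm (w - x)) :
    ∃ s t, nm (s - x) ≤ r ∧ R ≤ nm (t - x) ∧
      ReflTransGen (PStep {v | v ∈ Bq x R ∧ v ∈ F}) u s ∧
      ReflTransGen (PStep {v | v ∈ Ann x r R ∧ v ∈ F}) s t := by
  have key : (∃ s t, nm (s - x) ≤ r ∧ R ≤ nm (t - x) ∧
      ReflTransGen (PStep {v | v ∈ Bq x R ∧ v ∈ F}) u s ∧
      ReflTransGen (PStep {v | v ∈ Ann x r R ∧ v ∈ F}) s t) ∨
      (∃ s, nm (s - x) ≤ r ∧ ReflTransGen (PStep {v | v ∈ Bq x R ∧ v ∈ F}) u s ∧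
        ReflTransGen (PStep {v | v ∈ Ann x r R ∧ v ∈ F}) s w ∧
        ReflTransGen (PStep {v | v ∈ Bq x R ∧ v ∈ F}) u w ∧ nm (w - x) < R) := by
    clear hw
    induction h with
    | refl => exact Or.inr ⟨u, hu, ReflTransGen.refl, ReflTransGen.refl, ReflTransGen.refl, by omega⟩
    | @tail b c _ hbc ih =>
      rcases ih with h1 | ⟨s, h1, h2, h3, h3', h4⟩
      · exact Or.inl h1
      · obtain ⟨hc1, hc2⟩ := cor_of_step hbc
        have hB : (min b.1 c.1, min b.2 c.2) ∈ Bq x R := Bq_of_nm h4 hc1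
        have h5 : ReflTransGen (PStep {v | v ∈ Bq x R ∧ v ∈ F}) u c :=
          h3'.tail ⟨hbc.1, hbc.2.1, hB, hbc.2.2⟩
        rcases le_or_gt (nm (c - x)) r with h6 | h6
        · exact Or.inr ⟨c, h6, h5, ReflTransGen.refl, h5, by omega⟩
        · have h7 : ReflTransGen (PStep {v | v ∈ Ann x r R ∧ v ∈ F}) s c :=
            h3.tail ⟨hbc.1, hbc.2.1, mem_Ann.2 ⟨hB, fun h8 => by
              have := nm_of_Bq h8 hc2
              omega⟩, hbc.2.2⟩
          rcases lt_or_ge (nm (c - x)) R with h8 | h8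
          · exact Or.inr ⟨s, h1, h2, h7, h5, h8⟩
          · exact Or.inl ⟨s, c, h1, h8, h2, h7⟩
  rcases key with h1 | ⟨s, -, -, -, -, h1⟩
  · exact h1
  · omega

/-- The odd sites of a box are joined in the box. -/
theorem inner_odd {F : Set (ℤ × ℤ)} {x : ℤ × ℤ} {r : ℤ} (hr : 1 ≤ r) (hF : ∀ v ∈ Bq x r, v ∈ F)
    {u v : ℤ × ℤ} (hu : Odd (u.1 + u.2)) (hv : Odd (v.1 + v.2)) (hur : nm (u - x) ≤ r)
    (hvr : nm (v - x) ≤ r) : ReflTransGen (PStep F) u v := by
  rw [Int.odd_iff] at hu hv
  have key : ∀ u : ℤ × ℤ, (u.1 + u.2) % 2 = 1 → nm (u - x) ≤ r →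
      ReflTransGen (PStep F) u (x.1 + (x.1 + x.2 + 1) % 2, x.2) := by
    intro u hu hur
    have hur' := hur
    rw [nm_abs] at hur'
    simp only [Prod.fst_sub, Prod.snd_sub] at hur'
    have hm : (x.1 + x.2 + 1) % 2 = 0 ∨ (x.1 + x.2 + 1) % 2 = 1 := by omega
    refine inner_aux hF (s := if (x.1 + x.2 + 1) % 2 = 0 then 1 else -1) ?_ ?_ ?_ ?_
      (2 * r).toNat u hur ?_ ?_
    · rcases hm with h | h <;> simp [h]
    · rw [nm_abs]
      simp only [Prod.fst_sub, Prod.snd_sub]
      omega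
    · rw [nm_abs]
      simp only [Prod.fst_sub, Prod.snd_sub, Prod.fst_add, Prod.snd_add]
      rcases hm with h | h
      · simp only [h, if_true]; omega
      · simp only [h, show ¬ ((1 : ℤ) = 0) by norm_num, if_false]; omega
    · rw [nm_abs]
      simp only [Prod.fst_sub, Prod.snd_sub, Prod.fst_add, Prod.snd_add]
      omega
    · simp only
      omega
    · simp only
      omega
  exact (key u hu hur).trans (rtg_symm (key v hv hvr))

theorem cor_pa (v : ℤ × ℤ) : Cor v (pa v) := by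
  unfold pa Cor
  split_ifs <;> simp

section

variable {n k : ℕ} {p : ZMod n → ℤ × ℤ} {S : Finset (ℤ × ℤ)} {A : Finset (Sym2 (ℤ × ℤ))}
  {x : ℤ × ℤ} {r R : ℤ} {f g : ℤ × ℤ}

theorem good_wired (hA : A ⊆ edges S) : Good (cfg (wiredOpen p k A)) := by
  have h1 := H718.cf_eq (S := S) (p := p) (k := k) (B := A \ wE p k)
    (Finset.sdiff_subset_sdiff hA (Finset.Subset.refl _))
  rw [H718.wiredOpen_sdiff] at h1
  rw [← h1]
  exact f_good.1 _ _ _ H718.good_etaQ

open Classical in
/-- **Fresh arms are unlikely.** -/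
theorem fresh_mean {q α C : ℝ} (hq : 1 ≤ q) (hA : ArmDec (√q) α C) (hp : IsPolygon p)
    (hS : Encloses p S) (hr : 1 ≤ r) (hrR : r ≤ R) {E : Set Cfg}
    (h : ∀ A ⊆ edges S, cfg (wiredOpen p k A) ∈ E →
      FreshP x r R (Dq S p k) (cfg (wiredOpen p k A)) ∨
        FreshD x r R (Dq S p k) (cfg (wiredOpen p k A))) :
    Final.mean q p k S (fun A => E.indicator 1 (cfg (wiredOpen p k A))) ≤
      2 * q * C * ((r : ℝ) / R) ^ α := by
  have hq0 : 0 < q := by linarith
  have hQ : 1 ≤ √q := by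
    rw [show (1 : ℝ) = √1 by simp]
    exact Real.sqrt_le_sqrt hq
  have hQ0 : 0 < √q := by linarith
  have hsq : √q ^ 2 = q := Real.sq_sqrt hq0.le
  have h5 := fresh_both hQ hA (x := x) hr hrR (Dq S p k) (H718.good_etaQ (p := p) (k := k))
  rw [hsq] at h5
  refine le_trans ?_ h5
  have h6 := H718.mean_eq_Ex (k := k) hq0 hp hS
    ({ω | FreshP x r R (Dq S p k) ω ∨ FreshD x r R (Dq S p k) ω}.indicator 1)
  unfold Pr
  rw [← h6]
  unfold Final.mean
  have hw0 : ∀ A, 0 ≤ Final.weight q p k S A := by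
    intro A
    have hs0 : 0 ≤ Final.selfDual q := by unfold Final.selfDual; positivity
    have hs1 : 0 ≤ 1 - Final.selfDual q := by
      unfold Final.selfDual
      rw [sub_nonneg, div_le_one (by positivity)]
      linarith
    unfold Final.weight
    positivity
  refine div_le_div_of_nonneg_right (Finset.sum_le_sum fun A hAm => ?_)
    (Finset.sum_nonneg fun A _ => hw0 A)
  refine mul_le_mul_of_nonneg_left ?_ (hw0 A)
  beta_reduce
  by_cases hE : cfg (wiredOpen p k A) ∈ E
  · rw [Set.indicator_of_mem hE, Set.indicator_of_mem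
      (show cfg (wiredOpen p k A) ∈ {ω | FreshP x r R (Dq S p k) ω ∨ FreshD x r R (Dq S p k) ω}
        from h A (Finset.mem_powerset.1 hAm) hE)]
  · rw [Set.indicator_of_notMem hE]
    exact ind_nonneg _ _

theorem cor_edge (a : ℤ × ℤ) (d : Fin 4) :
    Cor (sq s(a, a + dir d)) (H192.ro a) ∧ Cor (sq s(a, a + dir d)) (H192.ro (a + dir d)) := by
  have h := H192.ro_dir a d
  rw [H192.sq_dir]
  unfold Cor
  simp only
  omega

theorem cor_pol (hp : IsPolygon p) (i : ZMod n) :
    Cor (sq s(p i, p (i + 1))) (H192.ro (p i)) ∧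
      Cor (sq s(p i, p (i + 1))) (H192.ro (p (i + 1))) := by
  obtain ⟨d, hd⟩ := hp.2.2 i
  rw [hd]
  exact cor_edge _ d

/-- The wired edges are far away. -/
theorem far_wired (hp : IsPolygon p) (hw : ∀ i : ℕ, k ≤ i → i < n → R < nm (H192.ro (p i) - x)) {v : ℤ × ℤ}
    (hv : v ∈ Bq x R) : ed v ∉ wE p k := by
  intro h
  obtain ⟨i, h1, h2, h3⟩ := mem_wE.1 h
  have h4 : Cor v (H192.ro (p i)) := by
    have h5 : v = sq s(p i, p (i + 1)) := by rw [← h3, H192.sq_ed]
    rw [h5]
    exact (cor_pol hp i).1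
  have := nm_of_Bq hv h4
  have := hw i h1 (by omega)
  omega

/-- **The free arc.** -/
theorem free_det (hp : IsPolygon p) (hS : Encloses p S) (hA : A ⊆ edges S) (hkn : k < n)
    (hr : 1 ≤ r) (hrR : r < R) (hw : ∀ i : ℕ, k ≤ i → i < n → R < nm (H192.ro (p i) - x))
    (hf : nm (rf f - x) ≤ r) (hg : g ∉ S) (hgr : nm (rf g - x) ≤ r)
    (hL : LZ (cfg (wiredOpen p k A)) (H192.ro (p (-1))) (rf f)) :
    FreshP x r R (Dq S p k) (cfg (wiredOpen p k A)) := by
  set ω := cfg (wiredOpen p k A) with hω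
  set s₀ := H192.ro (p (-1)) with hs₀
  -- a blocked square in the box
  obtain ⟨v, hv, hb⟩ : ∃ v ∈ Bq x r, v ∈ Blk ω s₀ := by
    by_contra hc
    push Not at hc
    exact hL (far_step (inner_odd hr (F := (Blk ω s₀)ᶜ) hc (odd_rf' f) (odd_rf' g) hf hgr)
      (out_far hp hS hA hg))
  obtain ⟨hv1, hv2⟩ := hb
  have h1 : nm (pa v - x) ≤ r := nm_of_Bq hv (cor_pa v)
  have hn : p (-1) = p ((n - 1 : ℕ) : ZMod n) := by
    congr 1
    rw [Nat.cast_sub (by omega)]
    simp
  have h2 : R ≤ nm (s₀ - x) := by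
    rw [hs₀, hn]
    exact (hw (n - 1) (by omega) (by omega)).le
  obtain ⟨s, t, a1, a2, a3, a4⟩ := ann_path hrR (pw_symm hv2) h1 h2
  refine ⟨s, t, ?_, a1, a2, ?_, ?_⟩
  · exact even_rtg (even_pa v) a3
  · exact pw_mono (fun w hw => hw) a4
  · intro w hw1 hw2 _ _ _ _
    rw [mem_Ann] at hw1
    have h3 : ed w ∉ wE p k := far_wired hp hw hw1.1
    rw [H718.mem_Dq']
    refine ⟨?_, h3⟩
    rw [hω, H192.cfg_true, H718.mem_wiredOpen] at hw2
    exact hA (hw2.resolve_right h3)

/-- The edges of the polygon in the box are wired. -/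
theorem edge_box (hp : IsPolygon p) (hk : 0 < k)
    (hf : ∀ i : ℕ, i < k → R < nm (H192.ro (p i) - x)) {v : ℤ × ℤ} (hv : v ∈ Bq x R)
    {i : ZMod n} (h : ed v = s(p i, p (i + 1))) : ed v ∈ wE p k := by
  have : NeZero n := ⟨by have := hp.1; omega⟩
  have hj : i.val < n := ZMod.val_lt i
  have hi : ((i.val : ℕ) : ZMod n) = i := ZMod.natCast_zmod_val i
  have hv' : v = sq s(p i, p (i + 1)) := by rw [← h, H192.sq_ed]
  obtain ⟨c1, c2⟩ := cor_pol hp i
  rw [← hv'] at c1 c2
  by_contra hc
  have h1 : ¬ (k ≤ i.val ∧ i.val + 1 < n) := fun h' =>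
    hc (mem_wE.2 ⟨i.val, h'.1, h'.2, by rw [h, hi]⟩)
  rcases lt_or_ge i.val k with h2 | h2
  · have h3 := hf i.val h2
    rw [hi] at h3
    have := nm_of_Bq hv c1
    omega
  · have h3 : i.val + 1 = n := by omega
    have h4 : i + 1 = ((0 : ℕ) : ZMod n) := by
      rw [← hi, Nat.cast_zero]
      have : ((i.val + 1 : ℕ) : ZMod n) = 0 := by rw [h3]; simp
      push_cast at this ⊢
      exact this
    have h5 := hf 0 hk
    have h6 := nm_of_Bq hv c2
    rw [h4] at h6
    omega

theorem open_wE {v : ℤ × ℤ} (h : ed v ∈ wE p k) : cfg (wiredOpen p k A) v = true := by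
  rw [H192.cfg_true, H718.mem_wiredOpen]
  exact Or.inr h

/-- An edge between a face inside and a face outside is an edge of the polygon. -/
theorem edge_mixed (hS : Encloses p S) {c : Medial} (h1 : fc c ∈ S) (h2 : fc (rot c) ∉ S) :
    ∃ i, ahead c = s(p i, p (i + 1)) := by
  obtain ⟨w, d⟩ := c
  have e1 : ∀ d : Fin 4, d + 1 + 2 - 1 = d + 1 + 1 := by decide
  have e2 : ∀ d : Fin 4, d + 1 - 1 = d := by decide
  obtain ⟨i, h3, h4⟩ := (hS (w + dir (d + 1)) (d + 1 + 2)).2 ⟨by
    rw [face_right, e2 d]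
    exact h1, by
    rw [e1 d, face_left]
    exact h2⟩
  refine ⟨i, ?_⟩
  rw [h3, h4, dir_add_two']
  exact Sym2.eq_swap

/-- Closed steps in the box stay in the domain. -/
theorem in_step (hp : IsPolygon p) (hS : Encloses p S) (hk : 0 < k)
    (hf : ∀ i : ℕ, i < k → R < nm (H192.ro (p i) - x)) {u u' : ℤ × ℤ} (hu : Odd (u.1 + u.2))
    (h : PStep {v | v ∈ Bq x R ∧ cfg (wiredOpen p k A) v = false} u u')
    (hin : H192.rf' u ∈ S) : H192.rf' u' ∈ S := by
  obtain ⟨c, h1, h2, h3, h4, h5⟩ := dartD_of_step hu h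
  rw [← h1, H192.rf'_rf] at hin
  rw [← h2, H192.rf'_rf]
  by_contra hc
  obtain ⟨i, hi⟩ := edge_mixed hS hin hc
  rw [h3] at hi
  have h6 := open_wE (A := A) (edge_box hp hk hf h4 hi)
  rw [h6] at h5
  exact Bool.noConfusion h5

theorem in_steps (hp : IsPolygon p) (hS : Encloses p S) (hk : 0 < k)
    (hf : ∀ i : ℕ, i < k → R < nm (H192.ro (p i) - x)) {u u' : ℤ × ℤ} (hu : Odd (u.1 + u.2))
    (h : ReflTransGen (PStep {v | v ∈ Bq x R ∧ cfg (wiredOpen p k A) v = false}) u u')
    (hin : H192.rf' u ∈ S) : H192.rf' u' ∈ S ∧ Odd (u'.1 + u'.2) := by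
  induction h with
  | refl => exact ⟨hin, hu⟩
  | tail _ h1 ih => exact ⟨in_step hp hS hk hf ih.2 h1 ih.1, odd_step h1 ih.2⟩

/-- The left site of a wired edge is joined to the last site. -/
theorem pc_wired {i : ℕ} (hi : k ≤ i) (hin : i < n) (hp : IsPolygon p) :
    PC (cfg (wiredOpen p k A)) (H192.ro (p (-1))) (H192.ro (p i)) := by
  have hn : p (-1) = p ((n - 1 : ℕ) : ZMod n) := by
    congr 1
    rw [Nat.cast_sub (by omega)]
    simp
  rw [hn]
  obtain ⟨m, rfl⟩ : ∃ m, i = n - 1 - m := ⟨n - 1 - i, by omega⟩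
  clear hin
  induction m with
  | zero => exact ReflTransGen.refl
  | succ m ih =>
    rcases Nat.lt_or_ge (n - 1 - (m + 1)) (n - 1 - m) with h | h
    · refine ReflTransGen.tail (ih (by omega)) (PStep.symm ?_)
      obtain ⟨d, hd⟩ := hp.2.2 ((n - 1 - (m + 1) : ℕ) : ZMod n)
      have e : ((n - 1 - m : ℕ) : ZMod n) = ((n - 1 - (m + 1) : ℕ) : ZMod n) + 1 := by
        rw [show n - 1 - m = (n - 1 - (m + 1)) + 1 by omega]
        push_cast
        rfl
      rw [e]
      refine H192.PStep_iff.2 ⟨⟨d, hd⟩, Or.inr ⟨n - 1 - (m + 1), hi, by omega, rfl⟩⟩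
    · rw [show n - 1 - (m + 1) = n - 1 - m by omega]
      exact ih (by omega)

/-- The wired squares are in the cluster. -/
theorem pc_wE (hp : IsPolygon p) {v : ℤ × ℤ} (h : ed v ∈ wE p k) :
    PC (cfg (wiredOpen p k A)) (H192.ro (p (-1))) (pa v) := by
  obtain ⟨i, h1, h2, h3⟩ := mem_wE.1 h
  have hv' : v = sq s(p i, p (i + 1)) := by rw [← h3, H192.sq_ed]
  obtain ⟨c1, -⟩ := cor_pol hp i
  rw [← hv'] at c1
  have h4 := pc_wired (A := A) h1 (by omega) hp
  rcases H167.Q.even_cor c1 (H192.even_ro _) with h5 | h5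
  · rwa [← h5]
  · refine h4.trans ?_
    rw [h5]
    exact pw_symm (pc_ab (open_wE h))

/-- **The wired arc.** -/
theorem wired_det (hp : IsPolygon p) (hS : Encloses p S) (hA : A ⊆ edges S) (hk : 0 < k)
    (hr : 1 ≤ r) (hrR : r < R)
    (hw : ∀ i : ℕ, i < k → R < nm (H192.ro (p i) - x))
    (hfS : f ∈ S) (hf : nm (rf f - x) ≤ r) (hg : g ∉ S) (hgr : nm (rf g - x) ≤ r)
    (hL : ¬ LZ (cfg (wiredOpen p k A)) (H192.ro (p (-1))) (rf f)) :
    FreshD x r R (Dq S p k) (cfg (wiredOpen p k A)) := by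
  set ω := cfg (wiredOpen p k A) with hω
  set s₀ := H192.ro (p (-1)) with hs₀
  obtain ⟨ℓ, hℓ, he₀⟩ := good_wired (p := p) (k := k) hA (me (cs p))
  rw [← hω] at hℓ
  have hls : ls (me (cs p)) = s₀ := H192.ls_me _
  have hl : ∀ e ∈ ℓ, PC ω s₀ (ls e) := by
    rw [← hls]
    exact lz_of_loop hℓ he₀
  have hF : Far ω s₀ (rs (me (cs p))) := far_cs hp hS hA
  have h0 : W ℓ (rf f) = 0 :=
    (w_cases hℓ hl he₀ hF (odd_rf' f)).resolve_right fun h => hL ((lz_iff hℓ hl he₀ hF (odd_rf' f)).2 h)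
  have h1 : W ℓ s₀ = 1 := by
    rw [← hls, s_jump ω ℓ hℓ (me (cs p)), if_pos he₀, w_far hℓ hl (odd_rs _) hF]
    rfl
  -- an edge of the loop near `x` whose right site is inside
  obtain ⟨e, he, hi, hen⟩ : ∃ e ∈ ℓ, H192.rf' (rs e) ∈ S ∧ nm (rs e - x) ≤ r := by
    have hpath := inner_odd hr (F := {v | v ∈ Bq x r}) (fun v hv => hv) (odd_rf' f) (odd_rf' g) hf hgr
    have key : ∀ u, ReflTransGen (PStep {v | v ∈ Bq x r}) (rf f) u →
        (∃ e ∈ ℓ, H192.rf' (rs e) ∈ S ∧ nm (rs e - x) ≤ r) ∨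
        (H192.rf' u ∈ S ∧ W ℓ u = 0 ∧ Odd (u.1 + u.2) ∧ nm (u - x) ≤ r) := by
      intro u hu
      induction hu with
      | refl => exact Or.inr ⟨by rwa [H192.rf'_rf], h0, odd_rf' f, hf⟩
      | @tail u u' _ hs ih =>
        rcases ih with ih | ⟨i1, i2, i3, i4⟩
        · exact Or.inl ih
        · obtain ⟨hc1, hc2⟩ := cor_of_step hs
          have hco := dstep_cor hs i3
          have hv : (min u.1 u'.1, min u.2 u'.2) ∈ Bq x r := hs.2.2
          have hvR : (min u.1 u'.1, min u.2 u'.2) ∈ Bq x R := H167.Q.bq_mono hrR.le hv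
          have i4' : nm (u' - x) ≤ r := nm_of_Bq hv hc2
          have i3' := odd_step hs i3
          obtain ⟨c, d1, d2, d3, -⟩ := dartD_of_step i3 hs
          set v : ℤ × ℤ := (min u.1 u'.1, min u.2 u'.2) with hvd
          have hcu : u = da v ∨ u = db v := by
            rcases hco with h | h
            · exact Or.inl h.1
            · exact Or.inr h.1
          by_cases hu' : H192.rf' u' ∈ S
          · by_cases hW : W ℓ u' = 0
            · exact Or.inr ⟨hu', hW, i3', i4'⟩
            · left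
              by_contra hno
              push Not at hno
              have n1 : ∀ e, rs e = u ∨ rs e = u' → e ∉ ℓ := by
                rintro e (h | h) he
                · have := hno e he (by rw [h]; exact i1)
                  rw [h] at this
                  omega
                · have := hno e he (by rw [h]; exact hu')
                  rw [h] at this
                  omega
              have ha : rs (ia v) = u ∨ rs (ia v) = u' := by
                rw [rs_ia]
                rcases hco with h | h <;> rw [h.1, h.2] <;> split_ifs <;> simp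
              have hb : rs (ib v) = u ∨ rs (ib v) = u' := by
                rw [rs_ib]
                rcases hco with h | h <;> rw [h.1, h.2] <;> split_ifs <;> simp
              have g1 := s_jump ω ℓ hℓ (ia v)
              have g2 := s_jump ω ℓ hℓ (ib v)
              rw [if_neg (n1 _ ha), add_zero, ls_ia] at g1
              rw [if_neg (n1 _ hb), add_zero, ls_ib] at g2
              have hne : W ℓ (rs (ia v)) ≠ W ℓ (rs (ib v)) := by
                rw [rs_ia, rs_ib]
                rcases hco with h | h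
                · have q1 : W ℓ (da v) = 0 := by rw [← h.1]; exact i2
                  have q2 : W ℓ (db v) ≠ 0 := by rw [← h.2]; exact hW
                  split_ifs
                  · rw [q1]; exact q2
                  · rw [q1]; exact q2.symm
                · have q1 : W ℓ (db v) = 0 := by rw [← h.1]; exact i2
                  have q2 : W ℓ (da v) ≠ 0 := by rw [← h.2]; exact hW
                  split_ifs
                  · rw [q1]; exact q2.symm
                  · rw [q1]; exact q2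
              cases hv2 : ω v with
              | true =>
                have g3 : W ℓ (pa v) = W ℓ (pb v) := W_PC hℓ (even_pa v) (pc_ab hv2)
                exact hne (by rw [← g1, ← g2, g3])
              | false =>
                have g3 := s_step ω ℓ hℓ u u' (Or.inr ⟨i3, hs.1, hs.2.1, by
                  show ¬ (ω v = true)
                  rw [hv2]
                  exact Bool.false_ne_true⟩)
                rw [i2] at g3
                exact hW g3.symm
          · left
            have hmix := edge_mixed hS (c := c) (by rw [← H192.rf'_rf (fc c), d1]; exact i1)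
              (by rw [← H192.rf'_rf (fc (rot c)), d2]; exact hu')
            obtain ⟨i, hi⟩ := hmix
            rw [d3] at hi
            have hwE := edge_box hp hk hw hvR hi
            have hpc := pc_wE (A := A) hp hwE
            have hop : ω v = true := open_wE hwE
            have g1 : W ℓ (pa v) = 1 := by
              rw [← h1]
              exact (W_PC hℓ (H192.even_ro _) hpc).symm
            have g2 : W ℓ (pb v) = 1 := by
              rw [← g1]
              exact (W_PC hℓ (even_pa v) (pc_ab hop)).symm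
            rcases rs_cor v hcu with ⟨q1, q2⟩ | ⟨q1, q2⟩
            · refine ⟨ia v, ?_, by rw [q1]; exact i1, by rw [q1]; exact i4⟩
              by_contra hn
              have q3 := s_jump ω ℓ hℓ (ia v)
              rw [if_neg hn, q2, q1, g1, i2] at q3
              omega
            · refine ⟨ib v, ?_, by rw [q1]; exact i1, by rw [q1]; exact i4⟩
              by_contra hn
              have q3 := s_jump ω ℓ hℓ (ib v)
              rw [if_neg hn, q2, q1, g2, i2] at q3
              omega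
    rcases key _ hpath with h | ⟨h, -⟩
    · exact h
    · rw [H192.rf'_rf] at h
      exact absurd h hg
  -- the right bank
  have hfar : R ≤ nm (rs (me (cs p)) - x) := by
    have h2 := cor_pol hp (-1)
    rw [neg_add_cancel] at h2
    have h3 := hw 0 hk
    rw [Nat.cast_zero] at h3
    have h4 : Cor (sq (ahead (cs p))) (rs (me (cs p))) := by
      rw [H192.rs_me]
      exact cor_fc (cs p)
    rw [cs_ahead hp] at h4
    by_contra hlt
    have h5 := nm_of_Bq (Bq_of_nm (not_le.1 hlt) h4) h2.2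
    omega
  obtain ⟨s, t, a1, a2, a3, a4⟩ := ann_path hrR (dc_loop hℓ he he₀) hen hfar
  have conv : {v | v ∈ Bq x R ∧ v ∈ (op ω)ᶜ} ⊆ {v | v ∈ Bq x R ∧ ω v = false} := by
    rintro v ⟨h2, h3⟩
    exact ⟨h2, Bool.eq_false_iff.2 h3⟩
  obtain ⟨b1, b2⟩ := in_steps (A := A) hp hS hk hw (odd_rs e) (pw_mono conv a3) hi
  refine ⟨s, t, b2, a1, a2, pw_mono ?_ a4, ?_⟩
  · rintro v ⟨h2, h3⟩
    exact ⟨h2, Bool.eq_false_iff.2 h3⟩
  · intro v hv1 hv2 u hu hc hsu
    have h2 : ReflTransGen (PStep {v | v ∈ Bq x R ∧ ω v = false}) s u :=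
      pw_mono (F := {v | v ∈ Ann x r R ∧ ω v = false})
        (fun w (hw : w ∈ Ann x r R ∧ ω w = false) => (⟨(mem_Ann.1 hw.1).1, hw.2⟩ :
          w ∈ Bq x R ∧ ω w = false)) hsu
    obtain ⟨b3, -⟩ := in_steps (A := A) hp hS hk hw b2 h2 b1
    obtain ⟨c, c1, c2⟩ := dart_of_cor hu hc
    rw [H718.mem_Dq', ← c2]
    rw [← c1, H192.rf'_rf] at b3
    refine ⟨?_, fun h3 => ?_⟩
    · show s(c.1, c.1 + dir (c.2 + 1)) ∈ edges S
      rw [mem_edges]
      right
      have e2 : c.2 + 1 - 1 = c.2 := by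
        generalize c.2 = d
        revert d
        decide
      rw [e2]
      exact b3
    · rw [c2] at h3
      rw [hω, open_wE h3] at hv2
      exact Bool.noConfusion hv2

end

end Vale.Agent.P167.H192.S2
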