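import Vale.Agent.P167.FK.Flip
import Vale.Agent.P167.H192.Dict2
import Vale.Agent.P167.Top.Flow

/-!
# P167, general `q`, Stage II: the cluster of the wired arc separates a dual site from infinity

`s₀`: a primal site of the wired arc. `Blk ω s₀`: the open squares of the cluster of `s₀`. `LZ ω s₀ z`: the dual site
`z` is not joined to infinity off the blocked squares. `LZ` is increasing (`lz_mono`).
`lz_iff`: if `ℓ` is a loop whose left sites are in the cluster of `s₀` and one of whose right sites is joined to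
infinity, then `LZ ω s₀ z` iff `W ℓ z = 1`.
-/

namespace Vale.Agent.P167.H192.S2

open Finset Relation Vale.Agent.P167 Vale.Agent.P167.FK
open Vale.Agent.P145.FB (PStep PConn)

/-- The blocked squares: the open squares of the cluster of `s₀`. -/
def Blk (ω : Cfg) (s₀ : ℤ × ℤ) : Set (ℤ × ℤ) := {v | ω v = true ∧ PC ω s₀ (pa v)}

/-- Joined to infinity off the blocked squares. -/
def Far (ω : Cfg) (s₀ z : ℤ × ℤ) : Prop :=
  ∀ M : ℤ, ∃ y, M ≤ nm y ∧ ReflTransGen (PStep (Blk ω s₀)ᶜ) z y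

/-- The cluster of `s₀` separates `z` from infinity. -/
def LZ (ω : Cfg) (s₀ z : ℤ × ℤ) : Prop := ¬ Far ω s₀ z

theorem pw_mono {F G : Set (ℤ × ℤ)} (hFG : F ⊆ G) {u v : ℤ × ℤ} (h : ReflTransGen (PStep F) u v) :
    ReflTransGen (PStep G) u v := by
  induction h with
  | refl => exact ReflTransGen.refl
  | tail _ h ih => exact ih.tail ⟨h.1, h.2.1, hFG h.2.2⟩

theorem pw_symm {F : Set (ℤ × ℤ)} {u v : ℤ × ℤ} (h : ReflTransGen (PStep F) u v) :
    ReflTransGen (PStep F) v u := by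
  induction h with
  | refl => exact ReflTransGen.refl
  | tail _ h ih => exact (ReflTransGen.single h.symm).trans ih

theorem blk_mono {ω ω' : Cfg} (h : ∀ v, ω v = true → ω' v = true) (s₀ : ℤ × ℤ) :
    Blk ω s₀ ⊆ Blk ω' s₀ := by
  rintro v ⟨h1, h2⟩
  exact ⟨h v h1, pw_mono (fun w hw => h w hw) h2⟩

/-- **`LZ` is increasing.** -/
theorem lz_mono {ω ω' : Cfg} (h : ∀ v, ω v = true → ω' v = true) {s₀ z : ℤ × ℤ}
    (hz : LZ ω s₀ z) : LZ ω' s₀ z := by
  intro hF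
  refine hz fun M => ?_
  obtain ⟨y, h1, h2⟩ := hF M
  exact ⟨y, h1, pw_mono (Set.compl_subset_compl.2 (blk_mono h s₀)) h2⟩

/-- `LZ` depends on the cluster of `s₀` only. -/
theorem lz_base {ω : Cfg} {s₀ s₁ : ℤ × ℤ} (h : PC ω s₀ s₁) (z : ℤ × ℤ) :
    LZ ω s₀ z ↔ LZ ω s₁ z := by
  have : Blk ω s₀ = Blk ω s₁ := by
    ext v
    constructor
    · rintro ⟨h1, h2⟩
      exact ⟨h1, (pw_symm h).trans h2⟩
    · rintro ⟨h1, h2⟩
      exact ⟨h1, h.trans h2⟩
  unfold LZ Far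
  rw [this]

theorem far_step {ω : Cfg} {s₀ z z' : ℤ × ℤ} (h : ReflTransGen (PStep (Blk ω s₀)ᶜ) z z')
    (h' : Far ω s₀ z') : Far ω s₀ z := fun M => by
  obtain ⟨y, h1, h2⟩ := h' M
  exact ⟨y, h1, h.trans h2⟩

/-- Steps through closed squares are not blocked. -/
theorem dc_unb {ω : Cfg} {s₀ z z' : ℤ × ℤ} (h : DC ω z z') :
    ReflTransGen (PStep (Blk ω s₀)ᶜ) z z' :=
  pw_mono (F := (op ω)ᶜ) (fun _ hv (h' : _ ∈ Blk ω s₀) => hv h'.1) h

/-! ### squares and their corners -/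

theorem even_pa (v : ℤ × ℤ) : Even ((pa v).1 + (pa v).2) := by
  unfold pa
  split_ifs with h
  · exact h
  · have : ¬ Even (v.1 + v.2) := h
    rw [Int.even_iff] at *
    dsimp only
    omega

theorem pc_ab {ω : Cfg} {v : ℤ × ℤ} (h : ω v = true) : PC ω (pa v) (pb v) := by
  refine ReflTransGen.single ?_
  unfold pa pb
  split_ifs
  · exact ⟨Or.inl rfl, Or.inl rfl, by
      rw [show (min v.1 (v.1 + 1), min v.2 (v.2 + 1)) = v from by
        rw [min_eq_left (by omega), min_eq_left (by omega)]]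
      exact h⟩
  · exact ⟨Or.inl rfl, Or.inr (by dsimp only; omega), by
      rw [show (min v.1 (v.1 + 1), min (v.2 + 1) v.2) = v from by
        rw [min_eq_left (by omega), min_eq_right (by omega)]]
      exact h⟩

/-- The corners of a dual step. -/
theorem dstep_cor {F : Set (ℤ × ℤ)} {z z' : ℤ × ℤ} (h : PStep F z z') (hz : Odd (z.1 + z.2)) :
    (z = da (min z.1 z'.1, min z.2 z'.2) ∧ z' = db (min z.1 z'.1, min z.2 z'.2)) ∨
    (z = db (min z.1 z'.1, min z.2 z'.2) ∧ z' = da (min z.1 z'.1, min z.2 z'.2)) := by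
  obtain ⟨h1, h2, -⟩ := h
  obtain ⟨x, y⟩ := z
  obtain ⟨x', y'⟩ := z'
  rw [Int.odd_iff] at hz
  dsimp only at h1 h2 hz ⊢
  rcases h1 with rfl | rfl <;> rcases h2 with rfl | rfl <;> unfold da db <;>
    · simp only [Int.even_iff]
      first
        | (left; constructor <;> split_ifs <;> simp only [Prod.mk.injEq] <;> omega)
        | (right; constructor <;> split_ifs <;> simp only [Prod.mk.injEq] <;> omega)

/-- Every dual corner of a square is the right site of an incoming edge. -/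
theorem rs_cor (v : ℤ × ℤ) {w : ℤ × ℤ} (hw : w = da v ∨ w = db v) :
    (rs (ia v) = w ∧ ls (ia v) = pa v) ∨ (rs (ib v) = w ∧ ls (ib v) = pb v) := by
  rw [rs_ia, rs_ib, ls_ia, ls_ib]
  split_ifs <;> rcases hw with rfl | rfl <;> simp

variable {ω : Cfg} {ℓ : Finset Ed} {e₀ : Ed} {s₀ z : ℤ × ℤ}

/-- The right sites of a loop are joined by closed squares. -/
theorem dc_loop (h : IsLoop ω ℓ) {e e' : Ed} (he : e ∈ ℓ) (he' : e' ∈ ℓ) :
    DC ω (rs e) (rs e') := by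
  refine h.induct (p := fun x => DC ω (rs e) (rs x)) (fun x _ hx => ?_) he he' ReflTransGen.refl
  rcases H192.ls_nx ω x with ⟨-, -, h1, -⟩ | ⟨-, h1, -, -⟩
  · show DC ω (rs e) (rs (nx ω x))
    rw [h1]
    exact hx
  · exact ReflTransGen.tail hx h1

/-- The winding number is constant along steps which are not blocked. -/
theorem w_unb (h : IsLoop ω ℓ) (hl : ∀ e ∈ ℓ, PC ω s₀ (ls e)) {z z' : ℤ × ℤ}
    (hz : Odd (z.1 + z.2)) (hs : PStep (Blk ω s₀)ᶜ z z') : W ℓ z = W ℓ z' := by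
  cases hv : ω (min z.1 z'.1, min z.2 z'.2) with
  | false =>
    exact s_step ω ℓ h z z' (Or.inr ⟨hz, hs.1, hs.2.1, by
      show ¬ (ω _ = true)
      rw [hv]
      exact Bool.false_ne_true⟩)
  | true =>
    set v : ℤ × ℤ := (min z.1 z'.1, min z.2 z'.2) with hvd
    have hnb : ¬ PC ω s₀ (pa v) := fun hc => hs.2.2 ⟨hv, hc⟩
    have h1 : ia v ∉ ℓ := fun hc => hnb (by have := hl _ hc; rwa [ls_ia] at this)
    have h2 : ib v ∉ ℓ := fun hc => hnb (by
      have := hl _ hc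
      rw [ls_ib] at this
      exact this.trans (pw_symm (pc_ab hv)))
    have h3 := s_jump ω ℓ h (ia v)
    have h4 := s_jump ω ℓ h (ib v)
    rw [if_neg h1, add_zero, ls_ia] at h3
    rw [if_neg h2, add_zero, ls_ib] at h4
    have h5 : W ℓ (pa v) = W ℓ (pb v) := W_PC h (even_pa v) (pc_ab hv)
    have h6 : W ℓ (da v) = W ℓ (db v) := by
      rw [rs_ia] at h3
      rw [rs_ib] at h4
      split_ifs at h3 h4 <;> omega
    rcases dstep_cor hs hz with ⟨g1, g2⟩ | ⟨g1, g2⟩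
    · exact (congrArg (W ℓ) g1).trans (h6.trans (congrArg (W ℓ) g2).symm)
    · exact (congrArg (W ℓ) g1).trans (h6.symm.trans (congrArg (W ℓ) g2).symm)

theorem odd_step {F : Set (ℤ × ℤ)} {s t : ℤ × ℤ} (h : PStep F s t) (hs : Odd (s.1 + s.2)) :
    Odd (t.1 + t.2) := by
  obtain ⟨h1, h2, -⟩ := h
  rw [Int.odd_iff] at *
  omega

theorem w_unbs (h : IsLoop ω ℓ) (hl : ∀ e ∈ ℓ, PC ω s₀ (ls e)) {z z' : ℤ × ℤ}
    (hz : Odd (z.1 + z.2)) (hs : ReflTransGen (PStep (Blk ω s₀)ᶜ) z z') :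
    W ℓ z = W ℓ z' ∧ Odd (z'.1 + z'.2) := by
  induction hs with
  | refl => exact ⟨rfl, hz⟩
  | tail _ h1 ih => exact ⟨ih.1.trans (w_unb h hl ih.2 h1), odd_step h1 ih.2⟩

/-- Sites which are joined to infinity are not surrounded. -/
theorem w_far (h : IsLoop ω ℓ) (hl : ∀ e ∈ ℓ, PC ω s₀ (ls e)) (hz : Odd (z.1 + z.2))
    (hF : Far ω s₀ z) : W ℓ z = 0 := by
  obtain ⟨M, hM⟩ := ((W_finite h).image nm).bddAbove
  obtain ⟨y, h1, h2⟩ := hF (M + 1)
  rw [(w_unbs h hl hz h2).1]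
  by_contra hc
  have := hM ⟨y, hc, rfl⟩
  omega

/-- A path of dual sites to infinity. -/
theorem zig (z : ℤ × ℤ) (k : ℕ) : PStep Set.univ (z.1 + k, z.2 + k % 2)
    (z.1 + (k + 1 : ℕ), z.2 + (k + 1 : ℕ) % 2) := by
  refine ⟨Or.inl (by push_cast; ring), ?_, trivial⟩
  dsimp only
  push_cast
  omega

/-- **Sites which are not inside `ℓ` are joined to infinity.** -/
theorem far_of_w (h : IsLoop ω ℓ) (hl : ∀ e ∈ ℓ, PC ω s₀ (ls e)) (he : e₀ ∈ ℓ)
    (hF : Far ω s₀ (rs e₀)) (hz : Odd (z.1 + z.2)) (hW : W ℓ z ≠ 1) : Far ω s₀ z := by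
  have hW0 : W ℓ (ls e₀) = 1 := by
    rw [s_jump ω ℓ h e₀, if_pos he, w_far h hl (odd_rs e₀) hF]
    rfl
  by_contra hnF
  have key : ∀ k : ℕ, ReflTransGen (PStep (Blk ω s₀)ᶜ) z (z.1 + k, z.2 + k % 2) := by
    intro k
    induction k with
    | zero => simpa using ReflTransGen.refl
    | succ k ih =>
      have hs := zig z k
      obtain ⟨h1, h2⟩ := w_unbs h hl hz ih
      refine ih.tail ⟨hs.1, hs.2.1, ?_⟩
      rintro ⟨hv, hc⟩
      set v : ℤ × ℤ := (min (z.1 + (k : ℤ)) (z.1 + ((k + 1 : ℕ) : ℤ)),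
        min (z.2 + (k : ℤ) % 2) (z.2 + ((k + 1 : ℕ) : ℤ) % 2)) with hvd
      have h3 : W ℓ (pa v) = 1 := by
        rw [← hW0, ← W_PC h (even_ls e₀) ((pw_symm (hl e₀ he)).trans hc)]
      have h4 : W ℓ (pb v) = 1 := by
        rw [← W_PC h (even_pa v) (pc_ab hv), h3]
      have h5 : ((z.1 + (k : ℤ), z.2 + (k : ℤ) % 2) : ℤ × ℤ) = da v ∨
          ((z.1 + (k : ℤ), z.2 + (k : ℤ) % 2) : ℤ × ℤ) = db v := by
        rcases dstep_cor hs h2 with ⟨g1, -⟩ | ⟨g1, -⟩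
        · exact Or.inl g1
        · exact Or.inr g1
      obtain ⟨e, he', hr⟩ : ∃ e ∈ ℓ, rs e = (z.1 + (k : ℤ), z.2 + (k : ℤ) % 2) := by
        rcases rs_cor v h5 with ⟨g1, g2⟩ | ⟨g1, g2⟩
        · refine ⟨ia v, ?_, g1⟩
          by_contra hn
          have g3 := s_jump ω ℓ h (ia v)
          rw [if_neg hn, g1, g2, h3, ← h1] at g3
          omega
        · refine ⟨ib v, ?_, g1⟩
          by_contra hn
          have g3 := s_jump ω ℓ h (ib v)
          rw [if_neg hn, g1, g2, h4, ← h1] at g3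
          omega
      refine hnF (far_step (ih.trans ?_) hF)
      rw [← hr]
      exact dc_unb (dc_loop h he' he)
  refine hnF fun M => ⟨(z.1 + ((M - z.1).toNat : ℕ), z.2 + ((M - z.1).toNat : ℕ) % 2), ?_, key _⟩
  have : M ≤ |z.1 + ((M - z.1).toNat : ℤ)| := (by omega : M ≤ z.1 + ((M - z.1).toNat : ℤ)).trans
    (le_abs_self _)
  exact this.trans (le_max_left _ _)

/-- **The cluster of `s₀` separates `z` from infinity iff the loop surrounds `z`.** -/
theorem lz_iff (h : IsLoop ω ℓ) (hl : ∀ e ∈ ℓ, PC ω s₀ (ls e)) (he : e₀ ∈ ℓ)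
    (hF : Far ω s₀ (rs e₀)) (hz : Odd (z.1 + z.2)) : LZ ω s₀ z ↔ W ℓ z = 1 := by
  constructor
  · intro h1
    by_contra h2
    exact h1 (far_of_w h hl he hF hz h2)
  · intro h1 h2
    rw [w_far h hl hz h2] at h1
    exact zero_ne_one h1

theorem lz_of_loop (h : IsLoop ω ℓ) (he : e₀ ∈ ℓ) : ∀ e ∈ ℓ, PC ω (ls e₀) (ls e) :=
  fun _ he' => PC_of_loop h he he'

/-- The winding number of a site is `0` or `1`. -/
theorem w_cases (h : IsLoop ω ℓ) (hl : ∀ e ∈ ℓ, PC ω s₀ (ls e)) (he : e₀ ∈ ℓ)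
    (hF : Far ω s₀ (rs e₀)) (hz : Odd (z.1 + z.2)) : W ℓ z = 0 ∨ W ℓ z = 1 := by
  by_cases h1 : W ℓ z = 1
  · exact Or.inr h1
  · exact Or.inl (w_far h hl hz (far_of_w h hl he hF hz h1))

end Vale.Agent.P167.H192.S2
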