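import Vale.Agent.P167.QN.Farm
import Vale.Agent.P167.H192.TA.Geo

/-!
# P167, general `q`, Stage II: the interface comes near an interior point

`near_mean`: the probability that the interface comes within `r` of a point whose box of radius `R` is in the
domain (and does not contain the starting point) is at most `C (r / R) ^ α`.
-/

namespace Vale.Agent.P167.H192.S2

open Finset Relation Vale.Agent.P167 Vale.Agent.P167.FK Vale.Agent.P167.FKA
open Vale.Agent.P145.FB (PStep PConn)
open Vale.Agent.P167.H192 (me cfg wires path)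
open Vale.Agent.P167.H718 (Dq etaQ)
open Vale.Agent.P167.E6 Vale.Agent.P167.E2
open Vale.Agent.P167.QN (wO_As)

variable {n : ℕ} {p : ZMod n → ℤ × ℤ} {k : ℕ} {S : Finset (ℤ × ℤ)}

/-- An open path from distance `≤ r` to distance `≥ R` contains an arm. -/
theorem armPx_of_path {ω : Cfg} {x : ℤ × ℤ} {r R : ℤ} (hrR : r ≤ R) {u v : ℤ × ℤ}
    (h : ReflTransGen (PStep (op ω)) u v) (hu : Even (u.1 + u.2)) (h1 : nm (u - x) ≤ r)
    (h2 : R ≤ nm (v - x)) : ArmPx x r R ω := by
  have key : (∃ w, PConn (op ω) {w | nm (w - x) ≤ R} u w ∧ R ≤ nm (w - x)) ∨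
      (PConn (op ω) {w | nm (w - x) ≤ R} u v ∧ nm (v - x) < R) := by
    clear h2
    induction h with
    | refl =>
      rcases lt_or_ge (nm (u - x)) R with h | h
      · exact Or.inr ⟨⟨by simp only [Set.mem_ofPred_eq]; omega, ReflTransGen.refl⟩, h⟩
      · exact Or.inl ⟨u, ⟨by simp only [Set.mem_ofPred_eq]; omega, ReflTransGen.refl⟩, h⟩
    | @tail a b _ hab ih =>
      rcases ih with h | ⟨h3, h4⟩
      · exact Or.inl h
      · have h5 : nm (b - x) ≤ R := by
          obtain ⟨p1, p2, -⟩ := hab
          have h6 := (H632.nm_le (v := a - x) (R := R - 1)).1 (by omega)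
          rw [H632.nm_le]
          simp only [Prod.fst_sub, Prod.snd_sub] at h6 ⊢
          omega
        have h7 : PConn (op ω) {w | nm (w - x) ≤ R} u b := ⟨h3.1, h3.2.tail ⟨hab, h5⟩⟩
        rcases lt_or_ge (nm (b - x)) R with h | h
        · exact Or.inr ⟨h7, h⟩
        · exact Or.inl ⟨b, h7, h⟩
  rcases key with ⟨w, h3, h4⟩ | ⟨-, h⟩
  · exact ⟨u, w, hu, h1, h4, h3⟩
  · omega

/-- The left sites of the run are joined by open squares. -/
theorem ls_run {A : Finset (Sym2 (ℤ × ℤ))} (hA : A ⊆ edges S) (i j : ℕ) (hij : i ≤ j) :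
    ReflTransGen (PStep (op (cfg (wiredOpen p k A)))) (ls (me (run p k A i)))
      (ls (me (run p k A j))) := by
  have h := H192.ls_chain (D := H192.dq p k S) (bc := H192.bq p k) (e := me (cs p))
    (cfg (wiredOpen p k A)) hij (le_refl j)
  rw [QN.path_run hA, QN.path_run hA] at h
  have h2 : H192.ov (H192.dq p k S) (H192.bq p k) (cfg (wiredOpen p k A)) =
      cfg (wiredOpen p k A) := by
    have h3 := H192.cfg_wiredOpen p k S (cfg (wiredOpen p k A))
    rw [wO_As hA] at h3
    exact h3.symm
  rw [h2] at h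
  exact H192.TA.Pw.mono Set.inter_subset_left h

open Classical in
/-- **(1c)** The interface comes near an interior point. -/
theorem near_mean {q α C : ℝ} (hq : 1 ≤ q) (hA : ArmDec (√q) α C) (hp : IsPolygon p)
    (hS : Encloses p S) {z : ℤ × ℤ} {r R : ℤ} (hr : 1 ≤ r) (hrR : r ≤ R)
    (hz : Bq z R \ Bq z r ⊆ Dq S p k) (hst : R ≤ nm (ls (me (cs p)) - z)) :
    Final.mean q p k S (fun A => if ∃ j, nm (ls (me (run p k A j)) - z) ≤ r then 1 else 0) ≤
      C * ((r : ℝ) / R) ^ α := by
  have hq0 : 0 < q := by linarith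
  have hQ : 1 ≤ √q := by
    rw [show (1 : ℝ) = √1 by simp]
    exact Real.sqrt_le_sqrt hq
  have hQ0 : 0 < √q := by linarith
  have h1 : Final.mean q p k S (fun A => if ∃ j, nm (ls (me (run p k A j)) - z) ≤ r then 1 else 0) ≤
      Final.mean q p k S (fun A => {ω | ArmPx z r R ω}.indicator 1 (cfg (wiredOpen p k A))) := by
    unfold Final.mean
    have hw0 : ∀ A, 0 ≤ Final.weight q p k S A := by
      intro A
      have hs0 : 0 ≤ Final.selfDual q := by unfold Final.selfDual; positivity
      have hs1 : 0 ≤ 1 - Final.selfDual q := by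
        unfold Final.selfDual
        rw [sub_nonneg, div_le_one (by positivity)]
        linarith
      unfold Final.weight
      positivity
    refine div_le_div_of_nonneg_right (Finset.sum_le_sum fun A hAm => ?_)
      (Finset.sum_nonneg fun A _ => hw0 A)
    refine mul_le_mul_of_nonneg_left ?_ (hw0 A)
    beta_reduce
    split_ifs with hc
    · obtain ⟨j, hj⟩ := hc
      have hpath := ls_run (p := p) (k := k) (Finset.mem_powerset.1 hAm) 0 j (Nat.zero_le j)
      have harm : ArmPx z r R (cfg (wiredOpen p k A)) := by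
        refine armPx_of_path hrR (H192.TA.Pw.symm hpath) ?_ hj hst
        rw [H192.ls_me]
        exact H192.even_ro _
      rw [Set.indicator_of_mem (show cfg (wiredOpen p k A) ∈ {ω | ArmPx z r R ω} from harm)]
      exact le_rfl
    · exact ind_nonneg _ _
  refine h1.trans ?_
  rw [H718.mean_eq_Ex hq0 hp hS ({ω | ArmPx z r R ω}.indicator 1)]
  have h2 := hA z r R (Dq S p k) (etaQ p k) (fun _ => 1) hr hrR H718.good_etaQ hz
    (fun _ => zero_le_one) (fun _ _ _ => rfl)
  rw [Ex_const hQ0, mul_one] at h2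
  simpa using h2

end Vale.Agent.P167.H192.S2
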